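import Vale.Agent.P273.H232.Cinf
import Vale.Agent.P273.H517.Bd
import Vale.Agent.P273.H630.VertIn
import Vale.Agent.P273.H722.UCore

/-!
# P273, crew ASY0, T3c (far half): the function cut off at infinity at theta

`a₀ EIc 0 + a₁ EIc 1 = KF (ε, w) c` on the sheet `yc`, `|w| < 1 / 12`.
-/

noncomputable section

namespace Vale.Agent.P273.H232

open Set Filter Metric
open H214 H604
open H681 (XX C6)
open H95 (IsCl ctr)
open H517 (Sm cm ph MM MI KF FarO pj)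
open H630 (sep_ctr ell0 eps0 ysh D0 I0 af0 cc)
open H598 (rz)
open scoped Topology ContDiff

/-- a differentiable function whose derivative vanishes off the centre is constant -/
theorem const_of_punctured {D : ℂ → ℂ} {r : ℝ} (hr : 0 < r) (hD : DifferentiableOn ℂ D (ball 0 r))
    (h : ∀ w ∈ ball (0 : ℂ) r, w ≠ 0 → deriv D w = 0) {w : ℂ} (hw : w ∈ ball (0 : ℂ) r) :
    D w = D 0 := by
  have h0 : (0 : ℂ) ∈ ball (0 : ℂ) r := mem_ball_self hr
  have h1 : ContinuousAt (deriv D) 0 :=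
    ((hD.deriv isOpen_ball).differentiableAt (isOpen_ball.mem_nhds h0)).continuousAt
  have h2 : Tendsto (deriv D) (𝓝[≠] 0) (𝓝 (deriv D 0)) := h1.tendsto.mono_left nhdsWithin_le_nhds
  have h3 : Tendsto (deriv D) (𝓝[≠] 0) (𝓝 0) := by
    refine tendsto_const_nhds.congr' ?_
    have h4 : ∀ᶠ z in 𝓝[≠] (0 : ℂ), z ∈ ball (0 : ℂ) r :=
      nhdsWithin_le_nhds (isOpen_ball.mem_nhds h0)
    filter_upwards [h4, self_mem_nhdsWithin] with z hz hz0
    exact (h z hz hz0).symm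
  have h5 : deriv D 0 = 0 := tendsto_nhds_unique h2 h3
  refine isOpen_ball.is_const_of_deriv_eq_zero (convex_ball 0 r).isPreconnected hD ?_ hw h0
  intro z hz
  by_cases hz0 : z = 0
  · rw [hz0]; exact h5
  · exact h z hz hz0

/-- the root at infinity on the side `P`: `w³ yc ε w⁻¹` -/
def gw (ε : Fin 3 → ℂ) (w : ℂ) : ℂ :=
  ∏ l : Fin 3, (1 - ctr l * w) * (1 - ε l * (w / (1 - ctr l * w)) ^ 2) ^ (2⁻¹ : ℂ)

theorem re_one_sub {w : ℂ} (hw : ‖w‖ < 1 / 12) (l : Fin 3) : ‖ctr l * w‖ < 1 / 2 := by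
  rw [norm_mul]
  have h1 := H630.norm_ctr_le l
  have h2 := norm_nonneg w
  have h3 := norm_nonneg (ctr l)
  nlinarith

theorem norm_one_sub {w : ℂ} (hw : ‖w‖ < 1 / 12) (l : Fin 3) : 1 / 2 < ‖1 - ctr l * w‖ := by
  have h1 := re_one_sub hw l
  have h2 := norm_sub_norm_le (1 : ℂ) (ctr l * w)
  rw [norm_one] at h2
  linarith

theorem slit_gw {ε : Fin 3 → ℂ} (hε : Sm ε) {w : ℂ} (hw : ‖w‖ < 1 / 12) (l : Fin 3) :
    1 - ε l * (w / (1 - ctr l * w)) ^ 2 ∈ Complex.slitPlane := by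
  have h1 := norm_one_sub hw l
  have h2 : ‖w / (1 - ctr l * w)‖ < 1 := by
    rw [norm_div, div_lt_one (by linarith)]
    linarith
  have h3 : ‖ε l * (w / (1 - ctr l * w)) ^ 2‖ < 1 := by
    rw [norm_mul, norm_pow]
    have h4 : ‖ε l‖ < (1 / 128) ^ 2 := hε l
    have h5 : ‖w / (1 - ctr l * w)‖ ^ 2 ≤ 1 := pow_le_one₀ (norm_nonneg _) h2.le
    have h6 := norm_nonneg (ε l)
    nlinarith [sq_nonneg ‖w / (1 - ctr l * w)‖]
  refine Complex.mem_slitPlane_iff.2 (Or.inl ?_)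
  have h4 := Complex.re_le_norm (ε l * (w / (1 - ctr l * w)) ^ 2)
  simp only [Complex.sub_re, Complex.one_re]
  linarith

theorem gw_eq {ε : Fin 3 → ℂ} {w : ℂ} (hw : ‖w‖ < 1 / 12) (hw0 : w ≠ 0) :
    gw ε w = w ^ 3 * H722.yc ε w⁻¹ := by
  unfold gw H722.yc
  rw [Fin.prod_univ_three, Fin.prod_univ_three]
  have h : ∀ l : Fin 3, (1 - ctr l * w) * (1 - ε l * (w / (1 - ctr l * w)) ^ 2) ^ (2⁻¹ : ℂ) =
      w * rz (ε l) (w⁻¹ - ctr l) := by
    intro l
    have h1 : 1 - ctr l * w ≠ 0 := norm_pos_iff.1 (by linarith [norm_one_sub hw l])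
    have h2 : w⁻¹ - ctr l = (1 - ctr l * w) / w := by field_simp
    unfold rz
    rw [h2]
    have h3 : ε l / ((1 - ctr l * w) / w) ^ 2 = ε l * (w / (1 - ctr l * w)) ^ 2 := by
      field_simp
    rw [h3]
    field_simp
  rw [h 0, h 1, h 2]
  change _ = w ^ 3 * (rz (ε 0) (w⁻¹ - ctr 0) * rz (ε 1) (w⁻¹ - ctr 1) * rz (ε 2) (w⁻¹ - ctr 2))
  ring

theorem gw_sq {ε : Fin 3 → ℂ} {w : ℂ} (hw : ‖w‖ < 1 / 12) :
    gw ε w ^ 2 = ∏ l : Fin 3, ((1 - ctr l * w) ^ 2 - ε l * w ^ 2) := by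
  unfold gw
  rw [← Finset.prod_pow]
  refine Finset.prod_congr rfl fun l _ => ?_
  have h1 : 1 - ctr l * w ≠ 0 := norm_pos_iff.1 (by linarith [norm_one_sub hw l])
  rw [mul_pow, ← Complex.cpow_nat_mul]
  have h2 : ((2 : ℕ) : ℂ) * 2⁻¹ = 1 := by norm_num
  rw [h2, Complex.cpow_one]
  field_simp

theorem gw_ne {ε : Fin 3 → ℂ} (hε : Sm ε) {w : ℂ} (hw : ‖w‖ < 1 / 12) : gw ε w ≠ 0 := by
  unfold gw
  refine Finset.prod_ne_zero_iff.2 fun l _ => ?_
  have h1 : 1 - ctr l * w ≠ 0 := norm_pos_iff.1 (by linarith [norm_one_sub hw l])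
  refine mul_ne_zero h1 ?_
  intro h0
  rw [Complex.cpow_eq_zero_iff] at h0
  exact Complex.slitPlane_ne_zero (slit_gw hε hw l) h0.1

theorem gw_zero (ε : Fin 3 → ℂ) : gw ε 0 = 1 := by
  simp [gw]

theorem continuousOn_gw {ε : Fin 3 → ℂ} (hε : Sm ε) : ContinuousOn (gw ε) (ball 0 (1 / 12)) := by
  intro w hw
  rw [mem_ball_zero_iff] at hw
  refine ContinuousAt.continuousWithinAt ?_
  unfold gw
  refine tendsto_finsetProd _ fun l _ => ?_
  have h1 : 1 - ctr l * w ≠ 0 := norm_pos_iff.1 (by linarith [norm_one_sub hw l])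
  have h2 : ContinuousAt (fun w : ℂ => w / (1 - ctr l * w)) w :=
    ContinuousAt.div continuousAt_id (by fun_prop) h1
  refine Tendsto.mul (Continuous.tendsto (by fun_prop) w) ?_
  exact ContinuousAt.cpow (continuousAt_const.sub (continuousAt_const.mul (h2.pow 2)))
    continuousAt_const (slit_gw hε hw l)

/-- the hypotheses on the roots -/
structure Th (b : Bs) (ε : Fin 3 → ℂ) : Prop where
  small : Sm ε
  bound : ‖b‖ < 6
  ff_eq : ∀ x, ff (b, x) = ∏ l : Fin 3, ((x - ctr l) ^ 2 - ε l)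

variable {b : Bs} {ε : Fin 3 → ℂ}

theorem Th.lt (h : Th b ε) {w : ℂ} (hw : ‖w‖ < 1 / 12) : ‖b‖ * ‖w‖ < 1 := by
  have h1 := h.bound
  have h2 := norm_nonneg w
  have h3 := norm_nonneg b
  nlinarith

theorem Th.DI (h : Th b ε) {w : ℂ} (hw : ‖w‖ < 1 / 12) : (b, w) ∈ DI := by
  intro i
  have h1 := h.bound
  have h2 := norm_nonneg w
  have h3 := norm_le_Bs b i
  have h4 := norm_nonneg (b i)
  simp only [norm_mul]
  nlinarith

theorem Th.prod_one (h : Th b ε) (w : ℂ) :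
    ∏ i, (1 - b i * w) = ∏ l : Fin 3, ((1 - ctr l * w) ^ 2 - ε l * w ^ 2) := by
  by_cases hw : w = 0
  · simp [hw]
  · have h1 := h.ff_eq w⁻¹
    have h2 : ∏ i : Fin 6, (1 - b i * w) = w ^ 6 * ff (b, w⁻¹) := by
      change _ = w ^ 6 * ∏ i : Fin 6, (w⁻¹ - b i)
      rw [← Fin.prod_const, ← Finset.prod_mul_distrib]
      refine Finset.prod_congr rfl fun i _ => ?_
      field_simp
    have h3 : w ^ 6 = ∏ _l : Fin 3, w ^ 2 := by
      rw [Fin.prod_const]; ring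
    rw [h2, h1, h3, ← Finset.prod_mul_distrib]
    refine Finset.prod_congr rfl fun l _ => ?_
    field_simp

theorem pr_sq {w : ℂ} : H233.Inf.pr b w ^ 2 = ∏ i, (1 - b i * w) := by
  unfold H233.Inf.pr
  rw [← Finset.prod_pow]
  refine Finset.prod_congr rfl fun i _ => ?_
  rw [pow_two, H857.cpow_half_mul_self]

theorem Th.pr_eq (h : Th b ε) {w : ℂ} (hw : ‖w‖ < 1 / 12) : H233.Inf.pr b w = gw ε w := by
  have h0 : (0 : ℂ) ∈ ball (0 : ℂ) (1 / 12) := mem_ball_self (by norm_num)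
  have h1 : EqOn (H233.Inf.pr b) (gw ε) (ball 0 (1 / 12)) := by
    refine (convex_ball (0 : ℂ) (1 / 12)).isPreconnected.eq_of_sq_eq ?_ (continuousOn_gw h.small)
      ?_ ?_ h0 ?_
    · intro z hz
      rw [mem_ball_zero_iff] at hz
      exact (H233.Inf.differentiableAt_pr_right (h.lt hz)).continuousAt.continuousWithinAt
    · intro z hz
      rw [mem_ball_zero_iff] at hz
      simp only [Pi.pow_apply]
      rw [pr_sq, gw_sq hz, h.prod_one]
    · intro z hz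
      rw [mem_ball_zero_iff] at hz
      exact gw_ne h.small hz
    · rw [H233.Inf.pr_zero, gw_zero]
  exact h1 (mem_ball_zero_iff.2 hw)

/-- the two sheets at infinity agree -/
theorem Th.yc_eq (h : Th b ε) {w : ℂ} (hw : ‖w‖ < 1 / 12) (hw0 : w ≠ 0) :
    H722.yc ε w⁻¹ = (w⁻¹) ^ 3 * Pinf b (w⁻¹)⁻¹ := by
  rw [inv_inv, ← pr_eq_Pinf (h.lt hw), h.pr_eq hw, gw_eq hw hw0]
  field_simp

theorem Th.EIc_eq (h : Th b ε) {w : ℂ} (hw : ‖w‖ < 1 / 12) (hw0 : w ≠ 0) {k : ℕ} (hk : k ≤ 1) :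
    EIc k b w⁻¹ (H722.yc ε w⁻¹) = H857.Ki k b w := by
  rw [EIc_branch (k := k) (b := b) (x := w⁻¹) (y := H722.yc ε w⁻¹) (sg := 1) hk (inv_ne_zero hw0)
    (by norm_num) (by rw [one_mul]; exact h.yc_eq hw hw0), inv_inv, Ki_eq_Iinf (h.lt hw)]
  ring

theorem mem_FarO (hε : ε ∈ I0.Om) {w : ℂ} (hw : ‖w‖ < 1 / 12) :
    ((ε, w) : (Fin 3 → ℂ) × ℂ) ∈ FarO sep_ctr ell0 := by
  refine ⟨hε, fun l => ?_, fun l => ?_⟩
  · have := norm_one_sub hw l
    simp only
    linarith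
  · have h1 := re_one_sub hw l
    have h2 := Complex.re_le_norm (ctr l * w)
    simp only [Complex.sub_re, Complex.one_re]
    linarith

/-- **the primitive at infinity** -/
theorem Th.KF_eq (h : Th b ε) (hρ : ‖ε‖ < D0.ρ) {w : ℂ} (hw : ‖w‖ < 1 / 12) {c : Fin 3 → ℂ}
    (hc : ∑ l, c l = 0) :
    af0 ε c 0 * H857.Ki 0 b w + af0 ε c 1 * H857.Ki 1 b w = KF sep_ctr ell0 (ε, w) c := by
  have hOm : ε ∈ I0.Om := I0.mem_Om hρ.le
  set G : ℂ → ℂ := fun w => KF sep_ctr ell0 (ε, w) c with hG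
  set F : ℂ → ℂ := fun w => af0 ε c 0 * H857.Ki 0 b w + af0 ε c 1 * H857.Ki 1 b w with hF
  have hFd : ∀ z ∈ ball (0 : ℂ) (1 / 12), HasDerivAt F
      (-((af0 ε c 0 * z + af0 ε c 1) / H233.Inf.pr b z)) z := by
    intro z hz
    rw [mem_ball_zero_iff] at hz
    have h0 := (H233.Inf.hasDerivAt_Ki (k := 0) (by norm_num) (h.lt hz)).const_mul (af0 ε c 0)
    have h1 := (H233.Inf.hasDerivAt_Ki (k := 1) le_rfl (h.lt hz)).const_mul (af0 ε c 1)
    refine (h0.add h1).congr_deriv ?_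
    simp only [H233.Inf.hh, Nat.sub_zero, pow_one, Nat.sub_self, pow_zero]
    ring
  have hGd : DifferentiableOn ℂ G (ball 0 (1 / 12)) := by
    intro z hz
    rw [mem_ball_zero_iff] at hz
    have h1 : DifferentiableAt ℂ (KF sep_ctr ell0) (ε, z) :=
      (H517.differentiableOn_KF sep_ctr ell0).differentiableAt
        ((H517.isOpen_FarO sep_ctr ell0).mem_nhds (mem_FarO hOm hz))
    have h2 : DifferentiableAt ℂ (fun z : ℂ => ((ε, z) : (Fin 3 → ℂ) × ℂ)) z := by fun_prop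
    have h3 : DifferentiableAt ℂ (fun z : ℂ => KF sep_ctr ell0 (ε, z)) z :=
      DifferentiableAt.comp (g := KF sep_ctr ell0) z h1 h2
    exact (h3.clm_apply (differentiableAt_const c)).differentiableWithinAt
  have hGder : ∀ z ∈ ball (0 : ℂ) (1 / 12), z ≠ 0 → HasDerivAt G
      (-((af0 ε c 0 * z + af0 ε c 1) / H233.Inf.pr b z)) z := by
    intro z hz hz0
    rw [mem_ball_zero_iff] at hz
    have hne : ∀ l : Fin 3, 1 - ctr l * z ≠ 0 := fun l =>
      norm_pos_iff.1 (by linarith [norm_one_sub hz l])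
    have hx : ∀ l : Fin 3, 1 / 128 < ‖z⁻¹ - ctr l‖ := by
      intro l
      have h2 : z⁻¹ - ctr l = (1 - ctr l * z) / z := by field_simp
      have h3 : 0 < ‖z‖ := norm_pos_iff.2 hz0
      rw [h2, norm_div, lt_div_iff₀ h3]
      have := norm_one_sub hz l
      linarith
    have hMI : ∀ m ≤ 1, HasDerivAt (fun z => MI ctr ε m z)
        ((ph ctr ε m z⁻¹ - ∑ k, (z⁻¹ - ctr k)⁻¹ * cm ctr ε m k) * (-(z ^ 2)⁻¹)) z := by
      intro m hm
      have h1 := H517.hasDerivAt_MM sep_ctr h.small hm hx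
      have h2 : HasDerivAt (fun z : ℂ => z⁻¹) (-(z ^ 2)⁻¹) z := hasDerivAt_inv hz0
      have h3 := h1.comp_of_eq z h2 rfl
      refine h3.congr_of_eventuallyEq ?_
      filter_upwards [isOpen_ne.mem_nhds hz0] with u hu
      exact H517.MI_eq ctr ε m hu
    have hlog : ∀ l : Fin 3, HasDerivAt (fun z => c l * Complex.log (1 - ctr l * z))
        (c l * (-ctr l / (1 - ctr l * z))) z := by
      intro l
      have h1 : HasDerivAt (fun z => 1 - ctr l * z) (-ctr l) z := by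
        simpa using ((hasDerivAt_id z).const_mul (ctr l)).const_sub 1
      have h2 : 1 - ctr l * z ∈ Complex.slitPlane := by
        refine Complex.mem_slitPlane_iff.2 (Or.inl ?_)
        have h3 := re_one_sub hz l
        have h4 := Complex.re_le_norm (ctr l * z)
        simp only [Complex.sub_re, Complex.one_re]
        linarith
      exact (h1.clog h2).const_mul (c l)
    have hsum : HasDerivAt G (af0 ε c 0 *
        ((ph ctr ε 0 z⁻¹ - ∑ k, (z⁻¹ - ctr k)⁻¹ * cm ctr ε 0 k) * (-(z ^ 2)⁻¹)) +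
        af0 ε c 1 * ((ph ctr ε 1 z⁻¹ - ∑ k, (z⁻¹ - ctr k)⁻¹ * cm ctr ε 1 k) * (-(z ^ 2)⁻¹)) +
        ∑ l, c l * (-ctr l / (1 - ctr l * z))) z := by
      have h1 := ((hMI 0 (by norm_num)).const_mul (af0 ε c 0)).add
        ((hMI 1 le_rfl).const_mul (af0 ε c 1))
      have h2 := HasDerivAt.fun_sum (u := Finset.univ) fun l _ => hlog l
      refine (h1.add h2).congr_of_eventuallyEq (Eventually.of_forall fun u => ?_)
      simp only [hG]
      rw [H517.KF_apply, Fin.sum_univ_two]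
      rfl
    refine hsum.congr_deriv ?_
    have e0 : ∀ k, af0 ε c 0 * cm ctr ε 0 k + af0 ε c 1 * cm ctr ε 1 k = c k := fun k =>
      H630.af_cm_theta (he := sep_ctr) (ell := ell0) hρ hc k
    have e1 : ph ctr ε 0 z⁻¹ = z ^ 3 / H233.Inf.pr b z := by
      rw [h.pr_eq hz, gw_eq hz hz0]
      unfold ph
      have e2 : H517.ph0 ctr ε z⁻¹ = (H722.yc ε z⁻¹)⁻¹ := H722.ph0_eq ε z⁻¹
      rw [e2]
      have e3 : H722.yc ε z⁻¹ ≠ 0 := H722.yc_ne h.small hx
      field_simp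
    have e1' : ph ctr ε 1 z⁻¹ = z ^ 2 / H233.Inf.pr b z := by
      have : ph ctr ε 1 z⁻¹ = z⁻¹ * ph ctr ε 0 z⁻¹ := by
        unfold ph
        ring
      rw [this, e1]
      field_simp
    have e4 : ∀ l : Fin 3, (z⁻¹ - ctr l)⁻¹ = z / (1 - ctr l * z) := by
      intro l
      have h2 : z⁻¹ - ctr l = (1 - ctr l * z) / z := by field_simp
      rw [h2, inv_div]
    have e5 : c 2 = -c 0 - c 1 := by
      rw [Fin.sum_univ_three] at hc
      linear_combination hc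
    have hpr : H233.Inf.pr b z ≠ 0 := by
      rw [h.pr_eq hz]; exact gw_ne h.small hz
    rw [e1, e1']
    simp only [Fin.sum_univ_three, e4]
    have k0 := e0 0
    have k1 := e0 1
    have k2 := e0 2
    have n0 := hne 0
    have n1 := hne 1
    have n2 := hne 2
    rw [e5] at k2
    rw [e5]
    generalize H233.Inf.pr b z = q at hpr
    generalize af0 ε c 0 = a0 at k0 k1 k2 ⊢
    generalize af0 ε c 1 = a1 at k0 k1 k2 ⊢
    have f0 : ∀ r0 r1 r2 : ℂ, a0 * ((z ^ 3 / q - (r0 * cm ctr ε 0 0 + r1 * cm ctr ε 0 1 +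
        r2 * cm ctr ε 0 2)) * -(z ^ 2)⁻¹) + a1 * ((z ^ 2 / q - (r0 * cm ctr ε 1 0 +
        r1 * cm ctr ε 1 1 + r2 * cm ctr ε 1 2)) * -(z ^ 2)⁻¹) =
        -((a0 * z + a1) / q) + (z ^ 2)⁻¹ * (r0 * c 0 + r1 * c 1 + r2 * (-c 0 - c 1)) := by
      intro r0 r1 r2
      rw [← k0, ← k1]
      have k2' : a0 * cm ctr ε 0 2 + a1 * cm ctr ε 1 2 =
          -(a0 * cm ctr ε 0 0 + a1 * cm ctr ε 1 0) - (a0 * cm ctr ε 0 1 + a1 * cm ctr ε 1 1) := by
        rw [k0, k1]; exact k2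
      rw [← k2']
      field_simp
      ring
    rw [f0]
    have f1 : (z ^ 2)⁻¹ * (z / (1 - ctr 0 * z) * c 0 + z / (1 - ctr 1 * z) * c 1 +
        z / (1 - ctr 2 * z) * (-c 0 - c 1)) + (c 0 * (-ctr 0 / (1 - ctr 0 * z)) +
        c 1 * (-ctr 1 / (1 - ctr 1 * z)) + (-c 0 - c 1) * (-ctr 2 / (1 - ctr 2 * z))) = 0 := by
      have f2 : ∀ e t : ℂ, 1 - e * z ≠ 0 →
          (z ^ 2)⁻¹ * (z / (1 - e * z) * t) + t * (-e / (1 - e * z)) = t / z := by
        intro e t he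
        have hd : e = (1 - (1 - e * z)) / z := by
          rw [sub_sub_cancel, mul_div_assoc, div_self hz0, mul_one]
        generalize 1 - e * z = d at he hd ⊢
        rw [hd]
        field_simp
        ring
      have g0 := f2 (ctr 0) (c 0) n0
      have g1 := f2 (ctr 1) (c 1) n1
      have g2 := f2 (ctr 2) (-c 0 - c 1) n2
      have g3 : c 0 / z + c 1 / z + (-c 0 - c 1) / z = 0 := by
        field_simp
        ring
      linear_combination g0 + g1 + g2 + g3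
    linear_combination f1
  have hconst : F w - G w = F 0 - G 0 := by
    refine const_of_punctured (D := fun z => F z - G z) (r := 1 / 12) (by norm_num) ?_ ?_
      (mem_ball_zero_iff.2 hw)
    · intro z hz
      exact ((hFd z hz).differentiableAt.differentiableWithinAt).sub (hGd z hz)
    · intro z hz hz0
      have h1 := (hFd z hz).sub (hGder z hz hz0)
      have h2 := h1.deriv
      simp only [sub_self] at h2
      exact h2
  have hF0 : F 0 = 0 := by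
    simp only [hF]
    rw [H233.Inf.Ki_zero (by norm_num), H233.Inf.Ki_zero le_rfl]
    ring
  have hG0 : G 0 = 0 := by
    simp only [hG]
    rw [H517.KF_zero]
    rfl
  rw [hF0, hG0, sub_zero] at hconst
  exact sub_eq_zero.1 hconst

/-- **`A (EI)` at theta, complex form** -/
theorem Th.EI_eq (h : Th b ε) (hρ : ‖ε‖ < D0.ρ) {w : ℂ} (hw : ‖w‖ < 1 / 12) (hw0 : w ≠ 0)
    {c : Fin 3 → ℂ} (hc : ∑ l, c l = 0) :
    af0 ε c 0 * EIc 0 b w⁻¹ (H722.yc ε w⁻¹) + af0 ε c 1 * EIc 1 b w⁻¹ (H722.yc ε w⁻¹) =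
      KF sep_ctr ell0 (ε, w) c := by
  rw [h.EIc_eq hw hw0 (by norm_num), h.EIc_eq hw hw0 le_rfl, h.KF_eq hρ hw hc]

theorem th_rootsL {y α : Fin 3 → ℝ} (hy : ∀ k, 0 ≤ y k) (hS : Sm (eps0 y α)) :
    Th (H562.rootsL y α) (eps0 y α) where
  small := hS
  bound := by
    rw [H630.rootsL_eq]
    refine (pi_norm_lt_iff (by norm_num)).2 fun i => ?_
    have h : ∀ k, ‖ctr k - H630.dL y α k‖ < 6 ∧ ‖ctr k + H630.dL y α k‖ < 6 := by
      intro k
      have h1 := H630.norm_ctr_le k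
      have h2 := H630.norm_dL_le (α := α) (hy k)
      exact ⟨(norm_sub_le _ _).trans_lt (by linarith), (norm_add_le _ _).trans_lt (by linarith)⟩
    fin_cases i
    · exact (h 0).1
    · exact (h 0).2
    · exact (h 1).1
    · exact (h 1).2
    · exact (h 2).1
    · exact (h 2).2
  ff_eq x := H630.prod_rootsL y α x

/-- **`A (EI)` at theta**: the function which is cut off at infinity is `± Re KF`. -/
theorem A_EIv_theta {y α : Fin 3 → ℝ} (hy : ∀ k, 0 ≤ y k) (hS : Sm (eps0 y α))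
    (hρ : ‖eps0 y α‖ < D0.ρ) {w : ℂ} (hw : ‖w‖ < 1 / 12) (hw0 : w ≠ 0)
    {c : Fin 3 → ℂ} (hc : ∑ l, c l = 0) {A : ℂ × ℂ →L[ℝ] ℝ}
    (hA : ∀ u v : ℂ, A (u, v) = (af0 (eps0 y α) c 0 * u + af0 (eps0 y α) c 1 * v).re) :
    A (EIv (H562.rootsL y α) w⁻¹ (H722.yc (eps0 y α) w⁻¹)) =
      (KF sep_ctr ell0 (eps0 y α, w) c).re ∧
    A (EIv (H562.rootsL y α) w⁻¹ (-H722.yc (eps0 y α) w⁻¹)) =
      -(KF sep_ctr ell0 (eps0 y α, w) c).re := by
  have h := th_rootsL (α := α) hy hS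
  unfold EIv
  rw [hA, hA, EIc_neg, EIc_neg]
  have h1 := h.EI_eq hρ hw hw0 hc
  constructor
  · rw [h1]
  · have h2 : af0 (eps0 y α) c 0 * -EIc 0 (H562.rootsL y α) w⁻¹ (H722.yc (eps0 y α) w⁻¹) +
        af0 (eps0 y α) c 1 * -EIc 1 (H562.rootsL y α) w⁻¹ (H722.yc (eps0 y α) w⁻¹) =
        -(KF sep_ctr ell0 (eps0 y α, w) c) := by
      rw [← h1]; ring
    rw [h2, Complex.neg_re]

end Vale.Agent.P273.H232

end
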