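import Vale.Agent.P273.H580.The
import Vale.Agent.P273.H604.GInf
import Vale.Agent.P273.H233.GPINF

/-!
# P273, crew ASY0, T3c (far half): the form at infinity is the differential of the constant

`Cinf η A b = fderiv ℝ (cX ξ) b` for the flat form of the class `ξ` (all configurations of `XX`).
-/

noncomputable section

namespace Vale.Agent.P273.H232

open Set Filter
open H214 H604 H580
open H681 (XX C6)
open H95 (IsCl)
open scoped Topology ContDiff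

theorem psq_eq {z : ℂ} (hz : z ≠ 0) : psq z = z ^ (1 / 2 : ℂ) := by
  rw [psq, Complex.cpow_def_of_ne_zero hz]
  congr 1
  ring

theorem norm_le_Bs (b : Bs) (l : Fin 6) : ‖b l‖ ≤ ‖b‖ := norm_le_pi_norm b l

theorem pr_eq_Pinf {b : Bs} {w : ℂ} (h : ‖b‖ * ‖w‖ < 1) : H233.Inf.pr b w = Pinf b w := by
  unfold H233.Inf.pr Pinf
  refine Finset.prod_congr rfl fun l _ => ?_
  have h1 : (1 - b l * w) ≠ 0 :=
    Complex.slitPlane_ne_zero (H233.Inf.slit (H233.Inf.prod_lt h l))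
  rw [mul_comm w (b l), psq_eq h1]

theorem Ki_eq_Iinf {k : ℕ} {b : Bs} {w : ℂ} (h : ‖b‖ * ‖w‖ < 1) :
    H857.Ki k b w = -(w ^ (2 - k) * Iinf k b w) := by
  rw [H233.Inf.Ki_eq, Iinf]
  congr 2
  refine intervalIntegral.integral_congr fun r hr => ?_
  rw [uIcc_of_le zero_le_one] at hr
  have h3 : ‖(r : ℂ)‖ ≤ 1 := by
    rw [Complex.norm_real, Real.norm_eq_abs, abs_of_nonneg hr.1]; exact hr.2
  have h4 : ‖b‖ * ‖(r : ℂ) * w‖ < 1 := by
    refine lt_of_le_of_lt ?_ h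
    rw [norm_mul]
    exact mul_le_mul_of_nonneg_left (mul_le_of_le_one_left (norm_nonneg _) h3) (norm_nonneg _)
  rw [pr_eq_Pinf h4]

/-- the region at infinity used below -/
def FarR (b : Bs) : Set ℂ := {x | (b, x) ∈ Far ∧ x ∈ H233.Inf.Vu (‖b‖ + 1) ∧ ∀ l, (b l).re ≠ x.re}

theorem mem_FarR (b : Bs) : ∃ x, x ∈ FarR b := by
  set t : ℝ := 2 * Rr b + ‖b‖ + 2 with ht
  have h1 := Rr_pos b
  have h2 := norm_nonneg b
  refine ⟨(t : ℂ), ?_, ?_, fun l => ?_⟩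
  · change 2 * Rr b ^ 2 < ‖(t : ℂ)‖ ^ 2
    rw [Complex.norm_real, Real.norm_eq_abs, abs_of_pos (by linarith)]
    nlinarith
  · refine Or.inr (Or.inl ?_)
    change ‖b‖ + 1 < (t : ℂ).re
    rw [Complex.ofReal_re]
    linarith
  · rw [Complex.ofReal_re]
    have h3 : (b l).re ≤ ‖b l‖ := Complex.re_le_norm _
    have h4 := norm_le_Bs b l
    linarith

/-- near a far point the potential of the chart `∅` is the odd primitive plus the constant -/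
theorem Gf_eventually {ξ : Fin 6 → ℝ} {b : Bs} (hb : b ∈ XO) {x : ℂ} (hx : x ∈ FarR b) :
    Gf (PQ theStms) (AX ξ) (cX ξ) ∅ =ᶠ[𝓝 (b, x)] fun q => eI (AX ξ) Yinf q + cX ξ q.1 := by
  have h1 : ∀ᶠ q : Bs × ℂ in 𝓝 (b, x), q.1 ∈ XO :=
    continuousAt_fst.eventually_mem (isOpen_XO.mem_nhds hb)
  have h2 : ∀ᶠ q : Bs × ℂ in 𝓝 (b, x), q ∈ Far := isOpen_Far.mem_nhds hx.1
  have h3 : ∀ᶠ q : Bs × ℂ in 𝓝 (b, x), q.2 ∈ H233.Inf.Vu (‖b‖ + 1) :=
    continuousAt_snd.eventually_mem ((H233.Inf.isOpen_Vu _).mem_nhds hx.2.1)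
  have h4 : ∀ᶠ q : Bs × ℂ in 𝓝 (b, x), ‖q.1‖ < ‖b‖ + 1 :=
    (continuous_fst.norm.continuousAt).eventually (gt_mem_nhds (by simp))
  filter_upwards [h1, h2, h3, h4] with q hq1 hq2 hq3 hq4
  have hinj := xo_inj hq1
  have hn : ‖b‖ + 1 < ‖q.2‖ := H233.Inf.Vu_norm hq3
  have hlt : ‖q.1‖ * ‖q.2⁻¹‖ < 1 := by
    have h5 : 0 < ‖q.2‖ := by linarith [norm_nonneg b]
    rw [norm_inv, ← div_eq_mul_inv, div_lt_one h5]
    linarith
  have hP : ∀ k ≤ 1, H857.P k ∅ q.1 q.2 = EIc k q.1 q.2 (Yinf q) := by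
    intro k hk
    rw [H233.Inf.P_empty_eq H857.stmINV H857.stmHOL hk hinj hq4 hq3, Ki_eq_Iinf hlt,
      EIc_branch (k := k) (b := q.1) (x := q.2) (y := Yinf q) (sg := 1) hk (Far.ne_zero hq2)
        (by norm_num) (by rw [one_mul]; rfl)]
    ring
  unfold Gf eI EIv
  rw [← hP 0 (by norm_num), ← hP 1 le_rfl]
  rfl

/-- **the form at infinity is the differential of the constant** -/
theorem Cinf_etaX {ξ : Fin 6 → ℝ} (hξ : IsCl ξ) {b : Bs} (hb : b ∈ XO) :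
    Cinf (etaX theStms ξ) (AX ξ) b = fderiv ℝ (cX ξ) b := by
  obtain ⟨x, hx⟩ := mem_FarR b
  have hF : FlatOn XO (etaX theStms ξ) (AX ξ) := etaX_flatOn theStms (isCl_alt hξ)
  have hfl := flatX theStms (isCl_alt hξ)
  have hbr : IsBr Yinf (b, x) := isBr_Yinf hx.1
  have h1 := etaP_inf_pos hF hb hx.1
  have h2 := etaP_eq_far hF (p := (b, x)) hb hx.1 hbr
  have hDm : (b, x) ∈ Dm ∅ :=
    ⟨fun l hl => absurd hl (Finset.notMem_empty l), fun l hl => absurd hl (Finset.notMem_empty l),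
      fun l _ h => absurd h (hx.2.2 l)⟩
  have hsq : (PQ theStms).s ∅ (b, x) = Yinf (b, x) := by
    change H857.sq ∅ b x = x ^ 3 * Pinf b x⁻¹
    have hlt : ‖b‖ * ‖x⁻¹‖ < 1 := by
      have h5 : ‖b‖ + 1 < ‖x‖ := H233.Inf.Vu_norm hx.2.1
      rw [norm_inv, ← div_eq_mul_inv, div_lt_one (by linarith [norm_nonneg b])]
      linarith
    rw [H233.Inf.sq_empty (R := ‖b‖ + 1) (by linarith) hx.2.1, pr_eq_Pinf hlt]
  have h3 : etaX theStms ξ b x (Yinf (b, x)) =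
      fderiv ℝ (Gf (PQ theStms) (AX ξ) (cX ξ) ∅) (b, x) := by
    unfold etaX
    rw [hfl.eta_eq hb hDm, hsq, div_self hbr.ne_zero, Complex.one_re, one_smul]
  have hdc : DifferentiableAt ℝ (cX ξ) b := (hfl.smc b hb).differentiableAt (by simp)
  have hde : DifferentiableAt ℝ (eI (AX ξ) Yinf) (b, x) :=
    (contDiffAt_eI (hfl.smA b hb) hx.1 hbr).differentiableAt (by simp)
  have hdc2 : HasFDerivAt (fun q : Bs × ℂ => cX ξ q.1)
      ((fderiv ℝ (cX ξ) b).comp (ContinuousLinearMap.fst ℝ Bs ℂ)) (b, x) :=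
    HasFDerivAt.comp (g := cX ξ) (f := Prod.fst) (b, x) hdc.hasFDerivAt hasFDerivAt_fst
  have h4 : fderiv ℝ (Gf (PQ theStms) (AX ξ) (cX ξ) ∅) (b, x) =
      fderiv ℝ (eI (AX ξ) Yinf) (b, x) +
        (fderiv ℝ (cX ξ) b).comp (ContinuousLinearMap.fst ℝ Bs ℂ) := by
    rw [(Gf_eventually hb hx).fderiv_eq, fderiv_fun_add hde hdc2.differentiableAt, hdc2.fderiv]
  have h5 : (Cinf (etaX theStms ξ) (AX ξ) b).comp (ContinuousLinearMap.fst ℝ Bs ℂ) =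
      (fderiv ℝ (cX ξ) b).comp (ContinuousLinearMap.fst ℝ Bs ℂ) := by
    rw [← h1]
    change etaP (etaX theStms ξ) (AX ξ) b x (Yinf (b, x)) = _
    have h6 : etaP (etaX theStms ξ) (AX ξ) b x (Yinf (b, x)) =
        etaX theStms ξ b x (Yinf (b, x)) - fderiv ℝ (eI (AX ξ) Yinf) (b, x) := h2
    rw [h6, h3, h4]
    abel
  refine ContinuousLinearMap.ext fun β => ?_
  have h6 := congrArg (fun L : Bs × ℂ →L[ℝ] ℝ => L (β, 0)) h5
  simpa using h6

theorem Cinf_eq {ξ : Fin 6 → ℝ} (hξ : IsCl ξ) {b : Bs} (hb : b ∈ XX) :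
    Cinf (theFlatFam.η ξ) (theFlatFam.A ξ) b = fderiv ℝ (cX ξ) b := Cinf_etaX hξ hb

end Vale.Agent.P273.H232

end
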